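import Vale.Agent.P158.Basic

/-!
Lowering one edge: the passage time is the smallest of the old one and the two routes through the
edge; geodesic lines stay geodesic when one of their edges is lowered.
-/

open Filter Topology

namespace Vale.Agent.P158.Match

/-- All weights are positive. -/
def Pos (t : Conf) : Prop := ∀ e, 0 < t e

/-- The passage time is attained. -/
def Att (t : Conf) : Prop := ∀ x y : V, ∃ p : grid.Walk x y, plen t p = T t x y

variable {t : Conf} {x y z : V}

lemma Pos.nn (h : Pos t) (e : Edge) : 0 ≤ t e := (h e).le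

lemma plen_mono {t' : Conf} (h : ∀ e, t' e ≤ t e) : ∀ {x y : V} (p : grid.Walk x y),
    plen t' p ≤ plen t p
  | _, _, .nil => by simp [plen]
  | _, _, .cons a p => by
    rw [plen_cons, plen_cons]; exact add_le_add (h _) (plen_mono h p)

/-- The weights with the edge between `a` and `b` set to `w`. -/
noncomputable def setE (t : Conf) (a b : V) (w : ℝ) : Conf := Function.update t (edgeOf a b) w

lemma setE_pos (ht : Pos t) {w : ℝ} (hw : 0 < w) (a b : V) : Pos (setE t a b w) := by
  intro e
  by_cases h : e = edgeOf a b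
  · subst h; simpa [setE] using hw
  · simpa [setE, Function.update_of_ne h] using ht e

lemma setE_le {a b : V} {w : ℝ} (hw : w ≤ wt t a b) (e : Edge) : setE t a b w e ≤ t e := by
  by_cases h : e = edgeOf a b
  · subst h; simpa [setE, wt] using hw
  · simp [setE, Function.update_of_ne h]

lemma T_mono (ha : Att t) {t' : Conf} (ht' : Pos t') (h : ∀ e, t' e ≤ t e) (x y : V) :
    T t' x y ≤ T t x y := by
  obtain ⟨p, hp⟩ := ha x y
  exact hp ▸ (T_le ht'.nn p).trans (plen_mono h p)

/-- The smallest of the old passage time and the two routes through the lowered edge. -/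
noncomputable def route (t : Conf) (a b : V) (w : ℝ) (x y : V) : ℝ :=
  min (T t x y) (min (T t x a + w + T t b y) (T t x b + w + T t a y))

lemma route_le_plen (ht : Pos t) {a b : V} (hab : Adj a b) {w : ℝ} (hw0 : 0 ≤ w) :
    ∀ {x y : V} (p : grid.Walk x y), route t a b w x y ≤ plen (setE t a b w) p
  | x, _, .nil => by rw [plen_nil]; exact (min_le_left _ _).trans (T_self ht.nn x).le
  | x, y, @SimpleGraph.Walk.cons _ _ _ c _ hxc p => by
    have ih := route_le_plen ht hab hw0 p
    have hxc' : Adj x c := hxc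
    rw [plen_cons]
    refine le_trans ?_ (add_le_add_right ih _)
    by_cases h : edgeOf x c = edgeOf a b
    · have hw' : wt (setE t a b w) x c = w := by simp [wt, setE, h]
      rw [hw', route, route, ← min_add_add_left, ← min_add_add_left]
      rcases (edgeOf_eq_iff hxc' hab).1 h with ⟨rfl, rfl⟩ | ⟨rfl, rfl⟩
      · have h1 : min (T t x y) (min (T t x x + w + T t c y) (T t x c + w + T t x y))
            ≤ w + T t c y :=
          (min_le_right _ _).trans ((min_le_left _ _).trans (by rw [T_self ht.nn]; simp))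
        refine le_min h1 (le_min (h1.trans ?_) ((min_le_left _ _).trans ?_))
        · linarith [T_nonneg ht.nn c x]
        · linarith [T_nonneg ht.nn c c]
      · have h1 : min (T t x y) (min (T t x c + w + T t x y) (T t x x + w + T t c y))
            ≤ w + T t c y :=
          (min_le_right _ _).trans ((min_le_right _ _).trans (by rw [T_self ht.nn]; simp))
        refine le_min h1 (le_min ((min_le_left _ _).trans ?_) (h1.trans ?_))
        · linarith [T_nonneg ht.nn c c]
        · linarith [T_nonneg ht.nn c x]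
    · have hw' : wt (setE t a b w) x c = wt t x c := by
        simp [wt, setE, Function.update_of_ne h]
      have hx : T t x c ≤ wt t x c := T_le_wt ht.nn hxc'
      rw [hw', route, route, ← min_add_add_left, ← min_add_add_left]
      refine le_min ((min_le_left _ _).trans ?_) (le_min
        ((min_le_right _ _).trans ((min_le_left _ _).trans ?_))
        ((min_le_right _ _).trans ((min_le_right _ _).trans ?_)))
      · linarith [T_triangle ht.nn x c y]
      · linarith [T_triangle ht.nn x c a]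
      · linarith [T_triangle ht.nn x c b]

lemma T_setE (ha : Att t) (ht : Pos t) {a b : V} (hab : Adj a b) {w : ℝ} (hw0 : 0 < w)
    (hw : w ≤ wt t a b) (x y : V) :
    T (setE t a b w) x y = route t a b w x y ∧
      ∃ p : grid.Walk x y, plen (setE t a b w) p = T (setE t a b w) x y := by
  set t' := setE t a b w with ht'def
  have ht' : Pos t' := setE_pos ht hw0 a b
  have hle : ∀ e, t' e ≤ t e := setE_le hw
  have hwab : wt t' a b = w := by simp [wt, ht'def, setE]
  have hadj : grid.Adj a b := hab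
  obtain ⟨p, hp⟩ := ha x y
  obtain ⟨p1, hp1⟩ := ha x a
  obtain ⟨p2, hp2⟩ := ha b y
  obtain ⟨q1, hq1⟩ := ha x b
  obtain ⟨q2, hq2⟩ := ha a y
  have u1 : plen t' p ≤ T t x y := hp ▸ plen_mono hle p
  have u2 : plen t' (p1.append (p2.cons hadj)) ≤ T t x a + w + T t b y := by
    rw [plen_append, plen_cons, hwab, ← hp1, ← hp2]
    linarith [plen_mono hle p1, plen_mono hle p2]
  have u3 : plen t' (q1.append (q2.cons hadj.symm)) ≤ T t x b + w + T t a y := by
    rw [plen_append, plen_cons, wt_comm, hwab, ← hq1, ← hq2]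
    linarith [plen_mono hle q1, plen_mono hle q2]
  have hlow : route t a b w x y ≤ T t' x y :=
    le_csInf ⟨_, ⟨p, rfl⟩⟩ (by rintro _ ⟨q, rfl⟩; exact route_le_plen ht hab hw0.le q)
  have key : ∀ q : grid.Walk x y, plen t' q ≤ route t a b w x y →
      T t' x y = route t a b w x y ∧ ∃ p : grid.Walk x y, plen t' p = T t' x y := by
    intro q hq
    have h1 := T_le ht'.nn q
    exact ⟨le_antisymm (h1.trans hq) hlow, q, le_antisymm (hq.trans hlow) h1⟩
  rcases min_choice (T t x y) (min (T t x a + w + T t b y) (T t x b + w + T t a y)) with h | h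
  · exact key p (by rw [route, h]; exact u1)
  · rcases min_choice (T t x a + w + T t b y) (T t x b + w + T t a y) with h' | h'
    · exact key _ (by rw [route, h, h']; exact u2)
    · exact key _ (by rw [route, h, h']; exact u3)

lemma att_setE (ha : Att t) (ht : Pos t) {a b : V} (hab : Adj a b) {w : ℝ} (hw0 : 0 < w)
    (hw : w ≤ wt t a b) : Att (setE t a b w) :=
  fun x y => (T_setE ha ht hab hw0 hw x y).2

lemma le_T_setE (ha : Att t) (ht : Pos t) {a b : V} (hab : Adj a b) {w : ℝ} (hw0 : 0 < w)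
    (hw : w ≤ wt t a b) {x y : V} {B : ℝ} (h0 : B ≤ T t x y)
    (h1 : B ≤ T t x a + w + T t b y) (h2 : B ≤ T t x b + w + T t a y) :
    B ≤ T (setE t a b w) x y :=
  (le_min h0 (le_min h1 h2)).trans_eq (T_setE ha ht hab hw0 hw x y).1.symm

/-- The signed weight of a doubly infinite path between index `0` and index `i`. -/
noncomputable def sl (t : Conf) (γ : ℤ → V) (i : ℤ) : ℝ :=
  (∑ k ∈ Finset.Ico 0 i, wt t (γ k) (γ (k + 1))) - ∑ k ∈ Finset.Ico i 0, wt t (γ k) (γ (k + 1))

lemma sl_zero (γ : ℤ → V) : sl t γ 0 = 0 := by simp [sl]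

lemma sl_succ (γ : ℤ → V) (i : ℤ) : sl t γ (i + 1) = sl t γ i + wt t (γ i) (γ (i + 1)) := by
  simp only [sl]
  rcases le_or_gt 0 i with h | h
  · rw [Finset.Ico_eq_empty_of_le (show (0:ℤ) ≤ i + 1 by omega),
      Finset.Ico_eq_empty_of_le h,
      show Finset.Ico (0:ℤ) (i + 1) = insert i (Finset.Ico 0 i) by ext; simp; omega,
      Finset.sum_insert (by simp)]
    simp [add_comm]
  · rw [Finset.Ico_eq_empty_of_le (show i + 1 ≤ (0:ℤ) by omega),
      Finset.Ico_eq_empty_of_le h.le,
      show Finset.Ico i (0:ℤ) = insert i (Finset.Ico (i + 1) 0) by ext; simp; omega,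
      Finset.sum_insert (by simp)]
    simp

lemma sum_Ico_eq (f : ℤ → ℝ) {L : ℤ → ℝ} (hL : ∀ i, L (i + 1) = L i + f i) {i j : ℤ} (h : i ≤ j) :
    ∑ k ∈ Finset.Ico i j, f k = L j - L i := by
  induction j, h using Int.leInduction with
  | base => simp
  | succ j hij ih =>
    rw [show Finset.Ico i (j + 1) = insert j (Finset.Ico i j) by ext; simp; omega,
      Finset.sum_insert (by simp), ih, hL]
    ring

/-- A doubly infinite geodesic, through a potential of its weights. -/
structure Line (t : Conf) (γ : ℤ → V) : Prop where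
  inj : Function.Injective γ
  adj : ∀ i, Adj (γ i) (γ (i + 1))
  geo : ∀ i j, i ≤ j → T t (γ i) (γ j) = sl t γ j - sl t γ i

lemma line_of_big {γ : ℤ → V} (h : IsBigeodesic t γ) (ht : Pos t) : Line t γ :=
  ⟨h.inj, h.adj, fun i j hij => by
    rcases hij.eq_or_lt with rfl | hlt
    · simp [T_self ht.nn]
    · rw [← h.geo i j hlt, sum_Ico_eq _ (sl_succ γ) hij]⟩

lemma Line.big {γ : ℤ → V} (h : Line t γ) : IsBigeodesic t γ :=
  ⟨h.inj, h.adj, fun i j hij => by rw [h.geo i j hij.le, sum_Ico_eq _ (sl_succ γ) hij.le]⟩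

lemma T_le_sl (ht : Pos t) {γ : ℤ → V} (hadj : ∀ i, Adj (γ i) (γ (i + 1))) {i j : ℤ}
    (h : i ≤ j) : T t (γ i) (γ j) ≤ sl t γ j - sl t γ i := by
  induction j, h using Int.leInduction with
  | base => simp [T_self ht.nn]
  | succ j hij ih =>
    rw [sl_succ]
    linarith [T_triangle ht.nn (γ i) (γ j) (γ (j + 1)), T_le_wt ht.nn (hadj j)]

lemma sl_mono (ht : Pos t) (γ : ℤ → V) {i j : ℤ} (h : i < j) : sl t γ i < sl t γ j := by
  have := sum_Ico_eq _ (sl_succ (t := t) γ) h.le
  have hpos : 0 < ∑ k ∈ Finset.Ico i j, wt t (γ k) (γ (k + 1)) :=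
    Finset.sum_pos (fun k _ => ht _) ⟨i, by simp [h]⟩
  linarith

/-- It is enough to check the geodesic equation on segments containing any given one. -/
lemma Line.of_cofinal (ht : Pos t) {γ : ℤ → V}
    (hadj : ∀ i, Adj (γ i) (γ (i + 1)))
    (h : ∀ i j, ∃ p q, p ≤ i ∧ j ≤ q ∧ sl t γ q - sl t γ p ≤ T t (γ p) (γ q)) : Line t γ := by
  have geo : ∀ i j, i ≤ j → T t (γ i) (γ j) = sl t γ j - sl t γ i := by
    intro i j hij
    refine le_antisymm (T_le_sl ht hadj hij) ?_
    obtain ⟨p, q, hp, hq, hle⟩ := h i j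
    linarith [T_triangle ht.nn (γ p) (γ i) (γ q), T_triangle ht.nn (γ i) (γ j) (γ q),
      T_le_sl ht hadj hp, T_le_sl ht hadj hq]
  refine ⟨fun i j hij => ?_, hadj, geo⟩
  by_contra hne
  rcases lt_or_gt_of_ne hne with hlt | hlt
  · have := geo i j hlt.le
    rw [hij, T_self ht.nn] at this
    linarith [sl_mono ht γ hlt]
  · have := geo j i hlt.le
    rw [hij, T_self ht.nn] at this
    linarith [sl_mono ht γ hlt]

lemma wt_setE_line {γ : ℤ → V} (hl : Line t γ) (i k : ℤ) (w : ℝ) :
    wt (setE t (γ i) (γ (i + 1)) w) (γ k) (γ (k + 1))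
      = if k = i then w else wt t (γ k) (γ (k + 1)) := by
  by_cases h : k = i
  · subst h; simp [wt, setE]
  · rw [if_neg h, wt, setE, Function.update_of_ne, wt]
    intro he
    rcases (edgeOf_eq_iff (hl.adj k) (hl.adj i)).1 he with ⟨h1, -⟩ | ⟨h1, h2⟩
    · exact h (hl.inj h1)
    · have := hl.inj h1; have := hl.inj h2; omega

lemma sl_setE_line {γ : ℤ → V} (hl : Line t γ) (i : ℤ) (w : ℝ) {p q : ℤ} (hpq : p ≤ q) :
    sl (setE t (γ i) (γ (i + 1)) w) γ q - sl (setE t (γ i) (γ (i + 1)) w) γ p
      = sl t γ q - sl t γ p - (if p ≤ i ∧ i < q then wt t (γ i) (γ (i + 1)) - w else 0) := by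
  rw [← sum_Ico_eq _ (sl_succ γ) hpq, ← sum_Ico_eq _ (sl_succ γ) hpq]
  simp only [wt_setE_line hl]
  by_cases h : p ≤ i ∧ i < q
  · rw [if_pos h, eq_sub_iff_add_eq, ← Finset.add_sum_erase _ _ (Finset.mem_Ico.2 h),
      ← Finset.add_sum_erase _ _ (Finset.mem_Ico.2 h), if_pos rfl]
    rw [Finset.sum_congr rfl fun k hk => if_neg (Finset.ne_of_mem_erase hk)]
    ring
  · rw [if_neg h, sub_zero]
    refine Finset.sum_congr rfl fun k hk => if_neg ?_
    rintro rfl
    exact h (Finset.mem_Ico.1 hk)

/-- Lowering an edge of a geodesic line keeps it a geodesic line. -/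
lemma Line.setE (ha : Att t) (ht : Pos t) {γ : ℤ → V} (hl : Line t γ) (i : ℤ) {w : ℝ}
    (hw0 : 0 < w) (hw : w ≤ wt t (γ i) (γ (i + 1))) :
    Line (Match.setE t (γ i) (γ (i + 1)) w) γ := by
  refine Line.of_cofinal (setE_pos ht hw0 _ _) hl.adj fun p q => ?_
  refine ⟨min p i, max q (i + 1), min_le_left _ _, le_max_left _ _, ?_⟩
  have hp : min p i ≤ i := min_le_right _ _
  have hq : i + 1 ≤ max q (i + 1) := le_max_right _ _
  rw [sl_setE_line hl i w (by omega), if_pos ⟨hp, by omega⟩]
  have g1 := hl.geo _ _ hp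
  have g2 := hl.geo _ _ hq
  have g3 := hl.geo _ _ (show min p i ≤ max q (i + 1) by omega)
  have g4 := hl.geo _ _ (show min p i ≤ i + 1 by omega)
  have g5 := hl.geo _ _ (show i ≤ max q (i + 1) by omega)
  have hs := sl_succ (t := t) γ i
  refine le_T_setE ha ht (hl.adj i) hw0 hw ?_ ?_ ?_ <;> linarith

end Vale.Agent.P158.Match
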