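import Vale.Agent.P158.Match.Base

/-!
The core of the surgery: after lowering one edge deep on a ray and one edge of a line, the ray
joins the line before the lowered edge and gives a second line with the same forward end.
-/

open Filter Topology

namespace Vale.Agent.P158.Match

/-- The vertices `r (N + j)` backwards, then the walk `P`, then `γ` from index `s`. -/
def glue (γ : ℤ → V) (r : ℕ → V) (N : ℕ) (s : ℤ) {x : V} (P : grid.Walk x (γ s)) (i : ℤ) : V :=
  if s ≤ i then γ i
  else if s - P.length ≤ i then P.getVert (i - (s - P.length)).toNat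
  else r (N + (s - P.length - i).toNat)

section glue

variable {t : Conf} {γ : ℤ → V} {r : ℕ → V} {N : ℕ} {s : ℤ} (P : grid.Walk (r N) (γ s))

lemma glue_fwd {i : ℤ} (h : s ≤ i) : glue γ r N s P i = γ i := if_pos h

lemma glue_mid {k : ℕ} (h : k ≤ P.length) :
    glue γ r N s P (s - P.length + k) = P.getVert k := by
  rcases h.eq_or_lt with rfl | hlt
  · rw [sub_add_cancel, glue_fwd P le_rfl, SimpleGraph.Walk.getVert_length]
  · rw [glue, if_neg (by omega), if_pos (by omega), show (s - (P.length : ℤ) + k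
      - (s - P.length)).toNat = k by omega]

lemma glue_back (j : ℕ) : glue γ r N s P (s - P.length - j) = r (N + j) := by
  rcases Nat.eq_zero_or_pos j with rfl | hj
  · simpa using glue_mid P (Nat.zero_le _)
  · rw [glue, if_neg (by omega), if_neg (by omega), show (s - (P.length : ℤ) - (s - P.length - j)
      ).toNat = j by omega]

lemma glue_adj (hr : ∀ i, Adj (r i) (r (i + 1))) (hγ : ∀ i, Adj (γ i) (γ (i + 1))) (i : ℤ) :
    Adj (glue γ r N s P i) (glue γ r N s P (i + 1)) := by
  by_cases h1 : s ≤ i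
  · rw [glue_fwd P h1, glue_fwd P (by omega)]; exact hγ i
  by_cases h2 : s - P.length ≤ i
  · obtain ⟨k, rfl⟩ : ∃ k : ℕ, i = s - P.length + k := ⟨(i - (s - P.length)).toNat, by omega⟩
    rw [show s - (P.length : ℤ) + k + 1 = s - P.length + ((k + 1 : ℕ) : ℤ) by push_cast; ring,
      glue_mid P (by omega), glue_mid P (by omega)]
    exact P.adj_getVert_succ (by omega)
  · obtain ⟨j, rfl⟩ : ∃ j : ℕ, i = s - P.length - ((j + 1 : ℕ) : ℤ) :=
      ⟨(s - P.length - i).toNat - 1, by omega⟩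
    rw [glue_back, show s - (P.length : ℤ) - ((j + 1 : ℕ) : ℤ) + 1 = s - P.length - j by
      push_cast; ring, glue_back]
    exact (hr (N + j)).symm

lemma sum_getVert {x y : V} (Q : grid.Walk x y) :
    ∑ k ∈ Finset.range Q.length, wt t (Q.getVert k) (Q.getVert (k + 1)) = plen t Q := by
  induction Q with
  | nil => simp
  | cons h q ih =>
    rw [SimpleGraph.Walk.length_cons, Finset.sum_range_succ', plen_cons, ← ih]
    simp only [SimpleGraph.Walk.getVert_cons_succ, SimpleGraph.Walk.getVert_zero, zero_add]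
    rw [add_comm]

lemma sl_glue_mid :
    sl t (glue γ r N s P) s - sl t (glue γ r N s P) (s - P.length) = plen t P := by
  have key : ∀ k ≤ P.length, sl t (glue γ r N s P) (s - P.length + k)
      - sl t (glue γ r N s P) (s - P.length)
      = ∑ i ∈ Finset.range k, wt t (P.getVert i) (P.getVert (i + 1)) := by
    intro k hk
    induction k with
    | zero => simp
    | succ k ih =>
      have e : s - (P.length : ℤ) + ((k + 1 : ℕ) : ℤ) = s - P.length + k + 1 := by push_cast; ring
      rw [e, sl_succ, Finset.sum_range_succ, ← ih (by omega), glue_mid P (by omega), ← e,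
        glue_mid P hk]
      ring
  simpa [sum_getVert] using key P.length le_rfl

lemma sl_glue_back (j : ℕ) :
    sl t (glue γ r N s P) (s - P.length) - sl t (glue γ r N s P) (s - P.length - j)
      = rlen t r (N + j) - rlen t r N := by
  induction j with
  | zero => simp
  | succ j ih =>
    have e : s - (P.length : ℤ) - ((j + 1 : ℕ) : ℤ) + 1 = s - P.length - j := by push_cast; ring
    have h := sl_succ (t := t) (glue γ r N s P) (s - P.length - ((j + 1 : ℕ) : ℤ))
    rw [e, glue_back, glue_back, wt_comm] at h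
    rw [← add_assoc] at h ⊢
    rw [rlen_succ]
    linarith

lemma sl_glue_fwd {q : ℤ} (hq : s ≤ q) :
    sl t (glue γ r N s P) q - sl t (glue γ r N s P) s = sl t γ q - sl t γ s := by
  rw [← sum_Ico_eq _ (sl_succ _) hq, ← sum_Ico_eq _ (sl_succ _) hq]
  refine Finset.sum_congr rfl fun k hk => ?_
  have hk' := (Finset.mem_Ico.1 hk).1
  rw [glue_fwd P hk', glue_fwd P (by omega)]

end glue

lemma rlen_setE_le {t : Conf} {r : ℕ → V} {N : ℕ} {w : ℝ} (hw : w ≤ wt t (r N) (r (N + 1)))
    {n : ℕ} (hn : N < n) :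
    rlen (setE t (r (N + 1)) (r N) w) r n - rlen (setE t (r (N + 1)) (r N) w) r N
      ≤ rlen t r n - rlen t r N - (wt t (r N) (r (N + 1)) - w) := by
  induction n, hn using Nat.le_induction with
  | base =>
    simp only [Nat.succ_eq_add_one, rlen_succ]
    have : wt (setE t (r (N + 1)) (r N) w) (r N) (r (N + 1)) = w := by
      rw [wt_comm]; simp [wt, setE]
    rw [this]; linarith
  | succ n _ ih =>
    simp only [rlen_succ]
    have : wt (setE t (r (N + 1)) (r N) w) (r n) (r (n + 1)) ≤ wt t (r n) (r (n + 1)) :=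
      setE_le (by rwa [wt_comm]) _
    linarith

/-- The surgery at two edges. The configuration `t` may already be lowered somewhere. -/
theorem core {t : Conf} (ha : Att t) (ht : Pos t) {γ : ℤ → V} (hl : Line t γ) {r : ℕ → V}
    (hr : ∀ i, Adj (r i) (r (i + 1))) {N : ℕ} {s : ℤ} {k h κ v1 v2 : ℝ}
    (hG1 : ∀ n, N ≤ n → ∀ m, s ≤ m →
      rlen t r n - rlen t r N + (sl t γ m - sl t γ s) + k ≤ T t (r n) (γ m))
    (hG2 : ∀ n, N ≤ n → rlen t r n - rlen t r N ≤ T t (r n) (r N))
    (hG3 : ∀ a b : ℤ, a ≤ s → s ≤ b →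
      κ + (sl t γ b - sl t γ a) ≤ T t (γ a) (r N) + T t (r N) (γ b))
    (hG4 : T t (r N) (γ s) ≤ k + h)
    (hv1 : 0 < v1) (hD : h ≤ wt t (r N) (r (N + 1)) - v1)
    (hDκ : wt t (r N) (r (N + 1)) - v1 ≤ κ) (hh : 0 ≤ h)
    (hv2 : 0 < v2) (hD3 : h ≤ wt t (γ s) (γ (s + 1)) - v2)
    (hne : edgeOf (r N) (r (N + 1)) ≠ edgeOf (γ s) (γ (s + 1))) :
    Line (setE (setE t (r (N + 1)) (r N) v1) (γ s) (γ (s + 1)) v2) γ ∧
    ∃ δ : ℤ → V, Line (setE (setE t (r (N + 1)) (r N) v1) (γ s) (γ (s + 1)) v2) δ ∧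
      (∀ i, s ≤ i → δ i = γ i) ∧ ∃ i₀ : ℤ, ∀ j : ℕ, δ (i₀ - j) = r (N + j) := by
  set D := wt t (r N) (r (N + 1)) - v1 with hDdef
  set D3 := wt t (γ s) (γ (s + 1)) - v2 with hD3def
  have hau : Adj (r (N + 1)) (r N) := (hr N).symm
  have hw1 : v1 ≤ wt t (r (N + 1)) (r N) := by rw [wt_comm]; linarith
  set t2 := setE t (r (N + 1)) (r N) v1 with ht2
  have ha2 : Att t2 := att_setE ha ht hau hv1 hw1
  have hp2 : Pos t2 := setE_pos ht hv1 _ _
  have hle2 : ∀ e, t2 e ≤ t e := setE_le hw1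
  have hwf : wt t2 (γ s) (γ (s + 1)) = wt t (γ s) (γ (s + 1)) := by
    rw [ht2, wt, setE, Function.update_of_ne, wt]
    rw [edgeOf_comm (r (N + 1))]; exact hne.symm
  have hv2w : v2 ≤ wt t2 (γ s) (γ (s + 1)) := by rw [hwf]; linarith
  set t3 := setE t2 (γ s) (γ (s + 1)) v2 with ht3
  have hsl2 : ∀ p q : ℤ, p ≤ q → sl t2 γ q - sl t2 γ p ≤ sl t γ q - sl t γ p := fun p q hpq => by
    rw [← sum_Ico_eq _ (sl_succ γ) hpq, ← sum_Ico_eq _ (sl_succ γ) hpq]
    exact Finset.sum_le_sum fun i _ => hle2 _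
  -- the line survives the first lowering
  have hT2line : ∀ a b : ℤ, a ≤ b → sl t γ b - sl t γ a ≤ T t2 (γ a) (γ b) := by
    have key : ∀ a b : ℤ, a ≤ s → s ≤ b → sl t γ b - sl t γ a ≤ T t2 (γ a) (γ b) := by
      intro a b ha' hb'
      have h3 := hG3 a b ha' hb'
      refine le_T_setE ha ht hau hv1 hw1 (hl.geo a b (ha'.trans hb')).ge ?_ ?_
      · have h1 : T t (γ a) (r N) ≤ T t (γ a) (r (N + 1)) + wt t (r N) (r (N + 1)) := by
          rw [wt_comm]
          exact (T_triangle ht.nn _ _ _).trans (add_le_add_right (T_le_wt ht.nn hau) _)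
        linarith
      · have h1 : T t (r N) (γ b) ≤ wt t (r N) (r (N + 1)) + T t (r (N + 1)) (γ b) :=
          (T_triangle ht.nn _ _ _).trans (add_le_add_left (T_le_wt ht.nn (hr N)) _)
        linarith
    intro a b hab
    have hk := key (min a s) (max b s) (min_le_right _ _) (le_max_right _ _)
    have h1 := T_triangle hp2.nn (γ (min a s)) (γ a) (γ (max b s))
    have h2 := T_triangle hp2.nn (γ a) (γ b) (γ (max b s))
    have h3 := (T_le_sl hp2 hl.adj (min_le_left a s)).trans (hsl2 _ _ (min_le_left a s))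
    have h4 := (T_le_sl hp2 hl.adj (le_max_left b s)).trans (hsl2 _ _ (le_max_left b s))
    linarith
  have hsleq : ∀ a b : ℤ, a ≤ b → sl t2 γ b - sl t2 γ a = sl t γ b - sl t γ a := fun a b hab =>
    le_antisymm (hsl2 a b hab) ((hT2line a b hab).trans (T_le_sl hp2 hl.adj hab))
  have hl2 : Line t2 γ := ⟨hl.inj, hl.adj, fun a b hab =>
    le_antisymm (T_le_sl hp2 hl.adj hab) ((hsleq a b hab).trans_le (hT2line a b hab))⟩
  have hl3 : Line t3 γ := hl2.setE ha2 hp2 s hv2 hv2w
  refine ⟨hl3, ?_⟩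
  have hp3 : Pos t3 := setE_pos hp2 hv2 _ _
  obtain ⟨P, hP⟩ := ha (r N) (γ s)
  refine ⟨glue γ r N s P, ?_, fun i hi => glue_fwd P hi, s - P.length, glue_back P⟩
  have ha3 : Att t3 := att_setE ha2 hp2 (hl.adj s) hv2 hv2w
  refine Line.of_cofinal hp3 (glue_adj P hr hl.adj) fun i j => ?_
  obtain ⟨n, hn⟩ : ∃ n : ℕ, s - P.length - i ≤ n ∧ 1 ≤ n :=
    ⟨(s - P.length - i).toNat + 1, by omega, by omega⟩
  obtain ⟨m, hm⟩ : ∃ m : ℤ, j ≤ m ∧ s < m := ⟨max j (s + 1), le_max_left _ _, by omega⟩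
  refine ⟨s - P.length - n, m, by omega, hm.1, ?_⟩
  rw [glue_back, glue_fwd P hm.2.le]
  -- upper bound: the weight of the glued path
  have u1 := sl_glue_back (t := t3) P n
  have u2 := sl_glue_mid (t := t3) P
  have u3 := sl_glue_fwd (t := t3) P hm.2.le
  have hle3 : ∀ e, t3 e ≤ t2 e := setE_le hv2w
  have w1 : rlen t3 r (N + n) - rlen t3 r N ≤ rlen t r (N + n) - rlen t r N - D := by
    refine le_trans ?_ (rlen_setE_le (by linarith) (show N < N + n by omega))
    have : ∀ q, N ≤ q → rlen t3 r q - rlen t3 r N ≤ rlen t2 r q - rlen t2 r N := by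
      intro q hq
      induction q, hq using Nat.le_induction with
      | base => simp
      | succ q _ ih =>
        simp only [rlen_succ]
        have : wt t3 (r q) (r (q + 1)) ≤ wt t2 (r q) (r (q + 1)) := hle3 _
        linarith
    exact this _ (by omega)
  have w2 : plen t3 P ≤ T t (r N) (γ s) :=
    hP ▸ plen_mono (fun e => (hle3 e).trans (hle2 e)) P
  have w3 : sl t3 γ m - sl t3 γ s = sl t γ m - sl t γ s - D3 := by
    rw [ht3, sl_setE_line hl2 s v2 hm.2.le, if_pos ⟨le_rfl, hm.2⟩, hsleq _ _ hm.2.le, hwf]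
  -- lower bound: the passage time
  set n' := N + n with hn'
  have hN : N ≤ n' := by omega
  set seg := rlen t r n' - rlen t r N with hseg
  set L := sl t γ m - sl t γ s with hLdef
  have g2 : seg ≤ T t (r n') (r N) := hG2 n' hN
  have low2 : ∀ z, min (T t (r n') z) (seg - D + T t (r N) z) ≤ T t2 (r n') z := by
    intro z
    refine le_T_setE ha ht hau hv1 hw1 (min_le_left _ _) ((min_le_right _ _).trans ?_)
      ((min_le_right _ _).trans ?_)
    · have h1 : T t (r n') (r N) ≤ T t (r n') (r (N + 1)) + wt t (r N) (r (N + 1)) := by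
        rw [wt_comm]
        exact (T_triangle ht.nn _ _ _).trans (add_le_add_right (T_le_wt ht.nn hau) _)
      linarith
    · have h1 : T t (r N) z ≤ wt t (r N) (r (N + 1)) + T t (r (N + 1)) z :=
        (T_triangle ht.nn _ _ _).trans (add_le_add_left (T_le_wt ht.nn (hr N)) _)
      linarith
  have g1m : seg + L + k ≤ T t (r n') (γ m) := hG1 n' hN m hm.2.le
  have g1s : seg + k ≤ T t (r n') (γ s) := by simpa using hG1 n' hN s le_rfl
  have g10 : L + k ≤ T t (r N) (γ m) := by simpa using hG1 N le_rfl m hm.2.le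
  have gA : seg + T t (r N) (γ s) - D ≤ T t2 (r n') (γ s) :=
    le_trans (le_min (by linarith) (by linarith)) (low2 (γ s))
  have gB : seg + L + k - D ≤ T t2 (r n') (γ m) :=
    le_trans (le_min (by linarith) (by linarith)) (low2 (γ m))
  have hbm : T t2 (γ (s + 1)) (γ m) = L - wt t (γ s) (γ (s + 1)) := by
    rw [hl2.geo _ _ (by omega), hsleq _ _ (show s + 1 ≤ m by omega), sl_succ, hLdef]; ring
  have low3 : seg + T t (r N) (γ s) + L - D - D3 ≤ T t3 (r n') (γ m) := by
    refine le_T_setE ha2 hp2 (hl.adj s) hv2 hv2w (by linarith) (by linarith) ?_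
    have h1 : T t2 (r n') (γ s) ≤ T t2 (r n') (γ (s + 1)) + wt t (γ s) (γ (s + 1)) := by
      rw [← hwf, wt_comm]
      exact (T_triangle hp2.nn _ _ _).trans (add_le_add_right (T_le_wt hp2.nn (hl.adj s).symm) _)
    have h2 : T t2 (γ s) (γ m) = L := by rw [hl2.geo _ _ hm.2.le, hsleq _ _ hm.2.le]
    linarith
  linarith

end Vale.Agent.P158.Match
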