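import Vale.Agent.P158.Match.Core
import Vale.Agent.P158.Rays
import Vale.Agent.P158.Meas

/-!
The surgery on the given data: a ray with finite crossed excess but a different Busemann
function leads, after lowering at most three edges, to two lines forking at a vertex.
-/

open MeasureTheory Filter Topology Set

namespace Vale.Agent.P158.Match

/-- Two bigeodesics of the class `D` share a forward ray and enter it from different
neighbours. -/
def Fork (D : (ℤ → V) → Prop) (t : Conf) : Prop :=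
  ∃ γ δ, IsBigeodesic t γ ∧ D γ ∧ IsBigeodesic t δ ∧ D δ ∧
    (∀ n : ℕ, γ n = δ n) ∧ γ (-1) ≠ δ (-1)

/-- A class of lines and a class of rays closed under the two operations of the surgery:
translating the index, and replacing the backward tail by the tail of a ray. -/
structure Closed (D : (ℤ → V) → Prop) (E : (ℕ → V) → Prop) : Prop where
  reindex : ∀ γ, D γ → ∀ m : ℤ, D fun i => γ (i + m)
  tails : ∀ (γ δ : ℤ → V) (r : ℕ → V) (N : ℕ) (s i₀ : ℤ), D γ → E r →
    (∀ i, s ≤ i → δ i = γ i) → (∀ j : ℕ, δ (i₀ - j) = r (N + j)) → D δ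

lemma tendsto_int {F : V → ℂ} {f : ℤ → V} {θ : ℂ}
    (h : Tendsto (fun n : ℕ => F (f n)) atTop (𝓝 θ)) :
    Tendsto (fun i : ℤ => F (f i)) atTop (𝓝 θ) := by
  have h1 : Tendsto Int.toNat atTop atTop :=
    tendsto_atTop.2 fun n => (eventually_ge_atTop (n : ℤ)).mono fun i hi => by omega
  refine (h.comp h1).congr' ((eventually_ge_atTop 0).mono fun i hi => ?_)
  simp [Int.toNat_of_nonneg hi]

lemma hasDirections_reindex {γ : ℤ → V} (h : HasDirections γ) (m : ℤ) :
    HasDirections (fun i => γ (i + m)) := by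
  obtain ⟨⟨θ, h1⟩, θ', h2⟩ := h
  refine ⟨⟨θ, ?_⟩, θ', ?_⟩
  · exact (tendsto_int (F := fun v => ‖toPlane v‖⁻¹ • toPlane v) h1).comp
      (tendsto_atTop_add_const_right _ m tendsto_natCast_atTop_atTop)
  · refine ((tendsto_int (F := fun v => ‖toPlane v‖⁻¹ • toPlane v) (f := fun i => γ (-i)) h2).comp
      (tendsto_atTop_add_const_right _ (-m) tendsto_natCast_atTop_atTop)).congr fun n => ?_
    simp only [Function.comp]
    rw [show -((n : ℤ) + -m) = -(n : ℤ) + m by ring]

lemma hasDirections_of_tails {γ δ : ℤ → V} {r : ℕ → V} {N : ℕ} {s i₀ : ℤ} (h : HasDirections γ)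
    (hr : ∃ θ, RayDir r θ) (hf : ∀ i, s ≤ i → δ i = γ i) (hb : ∀ j : ℕ, δ (i₀ - j) = r (N + j)) :
    HasDirections δ := by
  obtain ⟨⟨θ, h1⟩, -⟩ := h
  obtain ⟨θ', h2⟩ := hr
  refine ⟨⟨θ, h1.congr' ?_⟩, θ', ?_⟩
  · refine (eventually_ge_atTop s.toNat).mono fun n hn => ?_
    dsimp only
    rw [hf n (by omega)]
  · have h1' : Tendsto (fun n : ℕ => N + ((n : ℤ) + i₀).toNat) atTop atTop :=
      tendsto_atTop.2 fun b => (eventually_ge_atTop ((b : ℤ) - i₀).toNat).mono fun n hn => by omega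
    refine (h2.comp h1').congr' ((eventually_ge_atTop (-i₀).toNat).mono fun n hn => ?_)
    simp only [Function.comp]
    rw [← hb, show i₀ - (((n : ℤ) + i₀).toNat : ℤ) = -(n : ℤ) by omega]

/-- Directed lines and directed rays form such a pair of classes. -/
lemma closed_directed : Closed HasDirections fun r => ∃ θ, RayDir r θ :=
  ⟨fun _ h m => hasDirections_reindex h m,
    fun _ _ _ _ _ _ h hr hf hb => hasDirections_of_tails h hr hf hb⟩

/-- All lines and all rays form such a pair of classes. -/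
lemma closed_all : Closed (fun _ => True) fun _ => True :=
  ⟨fun _ _ _ => trivial, fun _ _ _ _ _ _ _ _ _ _ => trivial⟩

variable {t : Conf}

lemma sl_seg (γ : ℤ → V) {i j : ℤ} (h : i ≤ j) : Rays.seg t γ i j = sl t γ j - sl t γ i :=
  sum_Ico_eq _ (sl_succ γ) h

lemma bus_fwd_val (ht : Pos t) {γ : ℤ → V} (hγ : IsBigeodesic t γ) (j : ℤ) :
    bus t univ (fwd γ 0) (γ j) = -sl t γ j := by
  rw [Rays.bus_fwd_on hγ ht.nn]
  split_ifs with h
  · rw [sl_seg γ h, sl_zero]; ring
  · rw [sl_seg γ (by omega), sl_zero]; ring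

lemma bus_bwd_val (ht : Pos t) {γ : ℤ → V} (hγ : IsBigeodesic t γ) (j : ℤ) :
    bus t univ (bwd γ 0) (γ j) = sl t γ j := by
  rw [Rays.bus_bwd_on hγ ht.nn]
  split_ifs with h
  · rw [sl_seg γ h, sl_zero]; ring
  · rw [sl_seg γ (by omega), sl_zero]; ring

lemma bus_sub_le (ht : Pos t) {r : ℕ → V} (hr : IsRayIn t univ r) (x y : V) :
    bus t univ r x ≤ bus t univ r y + T t x y := by
  have h := (abs_le.1 ((Rays.isBus_bus ht.nn hr).lip x y)).2
  linarith

lemma le_T_ray (ht : Pos t) {r : ℕ → V} (hr : IsRayIn t univ r) (n : ℕ) (z : V) :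
    bus t univ r z + rlen t r n ≤ T t (r n) z := by
  have := Rays.bus_le ht.nn hr (connIn_univ (r 0) z) n
  rw [← T_eq_TS] at this
  linarith

lemma edge_eventually_ne {r : ℕ → V} (hinj : Function.Injective r)
    (hadj : ∀ i, Adj (r i) (r (i + 1))) (e : Edge) :
    ∀ᶠ n in atTop, edgeOf (r n) (r (n + 1)) ≠ e := by
  by_cases h : ∃ m, edgeOf (r m) (r (m + 1)) = e
  · obtain ⟨m, rfl⟩ := h
    refine (eventually_gt_atTop (m + 1)).mono fun n hn he => ?_
    rcases (edgeOf_eq_iff (hadj n) (hadj m)).1 he with ⟨h1, -⟩ | ⟨h1, -⟩ <;>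
      have := hinj h1 <;> omega
  · exact Eventually.of_forall fun n hn => h ⟨n, hn⟩

lemma rlen_anti {t' : Conf} (h : ∀ e, t' e ≤ t e) (r : ℕ → V) {a b : ℕ} (hab : a ≤ b) :
    rlen t' r b - rlen t' r a ≤ rlen t r b - rlen t r a := by
  induction b, hab using Nat.le_induction with
  | base => simp
  | succ b _ ih =>
    rw [rlen_succ, rlen_succ]
    linarith [show wt t' (r b) (r (b + 1)) ≤ wt t (r b) (r (b + 1)) from h _]

/-- A value with mass between two positive gaps below it. -/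
lemma exists_gap {G : Measure ℝ} {x g : ℝ} (h : 0 < G (Ioo (x - g) x)) :
    ∃ c : ℝ, 0 < c ∧ c < g ∧ 0 < G (Ioo (x - g) (x - c)) := by
  have hu : Ioo (x - g) x ⊆ ⋃ k : ℕ, Ioo (x - g) (x - 1 / (k + 1)) := by
    intro y hy
    obtain ⟨k, hk⟩ := exists_nat_one_div_lt (sub_pos.2 hy.2)
    exact mem_iUnion.2 ⟨k, hy.1, by linarith⟩
  obtain ⟨k, hk⟩ : ∃ k : ℕ, 0 < G (Ioo (x - g) (x - 1 / (k + 1))) := by
    by_contra hne
    push Not at hne
    exact h.ne' (measure_mono_null hu (measure_iUnion_null fun k => nonpos_iff_eq_zero.1 (hne k)))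
  refine ⟨1 / (k + 1), by positivity, ?_, hk⟩
  obtain ⟨y, h1, h2⟩ := nonempty_of_measure_ne_zero hk.ne'
  linarith

lemma pos_inter {G : Measure ℝ} (h0 : G (Iic 0) = 0) {s : Set ℝ} (h : 0 < G s) :
    0 < G (s ∩ Ioi 0) := by
  refine lt_of_lt_of_le h (le_trans (measure_mono (t := (s ∩ Ioi 0) ∪ Iic 0) ?_)
    ((measure_union_le _ _).trans (by rw [h0, add_zero])))
  intro x hx
  by_cases hx0 : 0 < x
  · exact Or.inl ⟨hx, hx0⟩
  · exact Or.inr (not_lt.1 hx0)

lemma override_pair (S : Finset Edge) (v : S → ℝ) {a b c d : V}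
    (h1 : edgeOf a b ∈ S) (h2 : edgeOf c d ∈ S)
    (hS : ∀ e ∈ S, e = edgeOf a b ∨ e = edgeOf c d) :
    override t S v = setE (setE t a b (v ⟨_, h1⟩)) c d (v ⟨_, h2⟩) := by
  funext e
  by_cases he : e = edgeOf c d
  · subst he; simp [override, h2, setE]
  rw [setE, Function.update_of_ne he, setE]
  by_cases he' : e = edgeOf a b
  · subst he'; simp [override, h1]
  · rw [Function.update_of_ne he', override, dif_neg]
    exact fun h => (hS e h).elim he' he

section surgery

variable {G : Measure ℝ} {γ : ℤ → V} {r : ℕ → V} {D : (ℤ → V) → Prop} {E : (ℕ → V) → Prop}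

/-- The last step: an earlier configuration `t'` together with the two edges. -/
lemma fork_of_core (ht : Pos t) (hγ : IsBigeodesic t γ) (hcl : Closed D E) (hd : D γ)
    (hr : IsRayIn t univ r) (hdir : E r)
    (hne : ¬ ∃ c : ℝ, ∀ z, bus t univ r z - bus t univ (bwd γ 0) z = c)
    {t'' : Conf} {N : ℕ} {s : ℤ} (hl : Line t'' γ) {δ : ℤ → V} (hδ : Line t'' δ)
    (hf : ∀ i, s ≤ i → δ i = γ i) {i₀ : ℤ} (hb : ∀ j : ℕ, δ (i₀ - j) = r (N + j)) :
    Fork D t'' := by
  have hex : ∃ i, δ i ≠ γ i := by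
    by_contra h
    push Not at h
    have htail : Rays.tail N r = bwd γ i₀ := funext fun j => by
      simp only [Rays.tail, bwd]; rw [← hb, h]
    have e1 := fun z (h : ConnIn univ (r 0) z) => Rays.bus_tail ht.nn hr h N
    have hP : ∃ c : ℝ, ∀ z, bus t univ (bwd γ i₀) z = bus t univ (bwd γ 0) z + c := by
      rcases le_total i₀ 0 with hi | hi
      · refine ⟨rlen t (bwd γ 0) (-i₀).toNat, fun z => ?_⟩
        rw [← Rays.bus_tail ht.nn (Rays.isRayIn_bwd hγ ht.nn 0) (connIn_univ _ z)]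
        congr 1
        funext j; simp only [Rays.tail, bwd]; congr 1; omega
      · refine ⟨-rlen t (bwd γ i₀) i₀.toNat, fun z => ?_⟩
        have := Rays.bus_tail ht.nn (Rays.isRayIn_bwd hγ ht.nn i₀) (connIn_univ _ z) i₀.toNat
        rw [show Rays.tail i₀.toNat (bwd γ i₀) = bwd γ 0 from funext fun j => by
          simp only [Rays.tail, bwd]; congr 1; omega] at this
        linarith
    obtain ⟨c, hc⟩ := hP
    refine hne ⟨c - rlen t r N, fun z => ?_⟩
    have := e1 z (connIn_univ _ z)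
    rw [htail, hc z] at this
    linarith
  obtain ⟨i, hi, hmax⟩ := Int.exists_greatest_of_bdd
    (P := fun i => δ i ≠ γ i) ⟨s, fun i hi => le_of_not_gt fun h => hi (hf i h.le)⟩ hex
  refine ⟨fun k => γ (k + (i + 1)), fun k => δ (k + (i + 1)), hl.big.reindex _,
    hcl.reindex _ hd _, hδ.big.reindex _,
    hcl.reindex _ (hcl.tails _ _ _ _ _ _ hd hdir hf hb) _, fun n => ?_, ?_⟩
  · by_contra h
    have := hmax _ (Ne.symm h)
    omega
  · simp only [show -1 + (i + 1) = i by ring]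
    exact Ne.symm hi

/-- What the last two lowerings need from the configuration `t'`. -/
structure Ready (t t' : Conf) (γ : ℤ → V) (r : ℕ → V) (κ : ℝ) (N : ℕ) (s : ℤ) : Prop where
  line : Line t' γ
  g1 : ∀ n, N ≤ n → ∀ m, s ≤ m → rlen t' r n - rlen t' r N + (sl t' γ m - sl t' γ s)
    + ((⨅ z, bus t univ r z + bus t univ (fwd γ 0) z) + rlen t r N + sl t γ s) ≤ T t' (r n) (γ m)
  g2 : ∀ n, N ≤ n → rlen t' r n - rlen t' r N ≤ T t' (r n) (r N)
  g3 : ∀ a b : ℤ, a ≤ s → s ≤ b →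
    κ + (sl t' γ b - sl t' γ a) ≤ T t' (γ a) (r N) + T t' (r N) (γ b)

variable (ha : Att t) (ht : Pos t) (hγ : IsBigeodesic t γ) (hcl : Closed D E)
  (hd : D γ) (hr : IsRayIn t univ r) (hdir : E r)
  (hne : ¬ ∃ c : ℝ, ∀ z, bus t univ r z - bus t univ (bwd γ 0) z = c)
  {C : ℝ} (hC : ∀ z, -C ≤ bus t univ r z + bus t univ (fwd γ 0) z)
include ha ht hγ hcl hd hr hdir hne hC

/-- Choice of the deep edge and of the edge of the line, and the conclusion. -/
lemma fork_of_ready (h0G : G (Iic 0) = 0) {c κ : ℝ} (hc : 0 < c)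
    (hgood : ∀ u : ℕ → V, Function.Injective u → (∀ i, Adj (u i) (u (i + 1))) →
      ∃ᶠ n in atTop, 0 < G (Ioo (wt t (u n) (u (n + 1)) - κ) (wt t (u n) (u (n + 1)) - c)))
    (g : Finset Edge)
    (t' : (g → ℝ) → Conf) (U : g → Set ℝ) (hU : ∀ e, 0 < G (U e))
    (ht' : ∀ v, (∀ e, v e ∈ U e) → Pos (t' v) ∧ Att (t' v) ∧ (∀ e, t' v e ≤ t e) ∧
      t' v = override t g v)
    (hready : ∀ᶠ N in atTop,
      bus t univ r (r N) + bus t univ (fwd γ 0) (r N)
          ≤ (⨅ z, bus t univ r z + bus t univ (fwd γ 0) z) + c / 2 →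
      ∀ᶠ s : ℕ in atTop, ∀ v, (∀ e, v e ∈ U e) → Ready t (t' v) γ r κ N s) :
    ∃ (S : Finset Edge) (W : S → Set ℝ), (∀ e, 0 < G (W e)) ∧
      ∀ v, (∀ e, v e ∈ W e) → Fork D (override t S v) := by
  classical
  set A := bus t univ r with hAdef
  set Q := bus t univ (fwd γ 0) with hQdef
  set e₀ := ⨅ z, A z + Q z with he₀
  have hbdd : BddBelow (range fun z => A z + Q z) := ⟨-C, by rintro _ ⟨z, rfl⟩; exact hC z⟩
  -- along the ray the crossed excess tends to its infimum
  have hAQ : ∀ᶠ n in atTop, A (r n) + Q (r n) ≤ e₀ + c / 2 := by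
    obtain ⟨z, hz⟩ := exists_lt_of_ciInf_lt (show e₀ < e₀ + c / 4 by linarith)
    have hlim := Rays.tendsto_bus ht.nn hr (connIn_univ (r 0) z)
    filter_upwards [hlim.eventually (eventually_le_nhds (show A z < A z + c / 4 by linarith))]
      with n hn
    have h1 := bus_sub_le ht (Rays.isRayIn_fwd hγ ht.nn 0) (r n) z
    rw [← T_eq_TS] at hn
    rw [hAdef, Rays.bus_ray ht.nn hr]
    linarith
  have hcond := hready.and (hAQ.and ((eventually_all_finset g).2
    fun e _ => edge_eventually_ne hr.inj hr.adj e))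
  obtain ⟨N, hgN, hN, hAQN, hNg⟩ := ((hgood r hr.inj hr.adj).and_eventually hcond).exists
  -- the edge of the line
  have hfray := Rays.isRayIn_fwd hγ ht.nn 0
  have hQs : ∀ᶠ s : ℕ in atTop, T t (r N) (γ s) - sl t γ s ≤ Q (r N) + c / 2 := by
    filter_upwards [(Rays.tendsto_bus ht.nn hfray (connIn_univ _ (r N))).eventually
      (eventually_le_nhds (show Q (r N) < Q (r N) + c / 2 by linarith))]
      with n hn
    rw [Rays.rlen_fwd, zero_add, sl_seg γ (by positivity), sl_zero, ← T_eq_TS, T_comm] at hn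
    simpa [fwd] using hn
  have hcond2 := (hN hAQN).and (hQs.and ((eventually_all_finset g).2
    (fun e _ => edge_eventually_ne hfray.inj hfray.adj e) |>.and
    (edge_eventually_ne hfray.inj hfray.adj (edgeOf (r N) (r (N + 1))))))
  obtain ⟨s, hgs, hs, hsQ, hsg, hsN⟩ :=
    ((hgood (fwd γ 0) hfray.inj hfray.adj).and_eventually hcond2).exists
  simp only [fwd, zero_add, Nat.cast_succ] at hgs hsg hsN
  set ep := edgeOf (r N) (r (N + 1)) with hep
  set ef := edgeOf (γ s) (γ (s + 1)) with hef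
  have hepg : ep ∉ g := fun h => hNg _ h rfl
  have hefg : ef ∉ g := fun h => hsg _ h rfl
  set S := insert ep (insert ef g) with hS
  set W : S → Set ℝ := fun e => if h : (e : Edge) ∈ g then U ⟨e, h⟩
    else Ioo (t e - κ) (t e - c) ∩ Ioi 0 with hW
  refine ⟨S, W, fun e => ?_, fun v hv => ?_⟩
  · simp only [hW]
    split_ifs with h
    · exact hU _
    · refine pos_inter h0G ?_
      rcases Finset.mem_insert.1 e.2 with h1 | h1
      · rw [h1]; exact hgN
      · rcases Finset.mem_insert.1 h1 with h1 | h1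
        · rw [h1]; exact hgs
        · exact absurd h1 h
  have hmp : ep ∈ S := by simp [hS]
  have hmf : ef ∈ S := by simp [hS]
  set v₀ : g → ℝ := fun e => v ⟨e, by simp [hS, e.2]⟩ with hv₀
  have hv₀U : ∀ e, v₀ e ∈ U e := fun e => by
    have := hv ⟨e, by simp [hS, e.2]⟩
    simpa [hW] using this
  obtain ⟨hp', ha', hle', heq⟩ := ht' v₀ hv₀U
  have hR := hs v₀ hv₀U
  have hv1 := hv ⟨ep, hmp⟩
  have hv2 := hv ⟨ef, hmf⟩
  simp only [hW, dif_neg hepg, dif_neg hefg, mem_inter_iff, mem_Ioo, mem_Ioi] at hv1 hv2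
  have hwp : wt (t' v₀) (r N) (r (N + 1)) = t ep := by
    rw [heq]; simp [wt, override, ← hep, hepg]
  have hwf : wt (t' v₀) (γ s) (γ (s + 1)) = t ef := by
    rw [heq]; simp [wt, override, ← hef, hefg]
  have hk : T (t' v₀) (r N) (γ s) ≤ (e₀ + rlen t r N + sl t γ s) + c := by
    have h1 := T_mono ha hp' hle' (r N) (γ s)
    have h2 : A (r N) = -rlen t r N := Rays.bus_ray ht.nn hr N
    linarith
  obtain ⟨hl3, δ, hδ, hfw, i₀, hb⟩ := core ha' hp' hR.line hr.adj hR.g1 hR.g2 hR.g3 hk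
    hv1.2 (show c ≤ wt (t' v₀) (r N) (r (N + 1)) - v ⟨ep, hmp⟩ by rw [hwp]; linarith [hv1.1.2])
    (show wt (t' v₀) (r N) (r (N + 1)) - v ⟨ep, hmp⟩ ≤ κ by rw [hwp]; linarith [hv1.1.1])
    hc.le hv2.2 (show c ≤ wt (t' v₀) (γ s) (γ (s + 1)) - v ⟨ef, hmf⟩ by
      rw [hwf]; linarith [hv2.1.2]) (Ne.symm hsN)
  have hov : override t S v = setE (setE (t' v₀) (r (N + 1)) (r N) (v ⟨ep, hmp⟩)) (γ s) (γ (s + 1))
      (v ⟨ef, hmf⟩) := by
    funext e
    simp only [setE, ← hef, edgeOf_comm (r (N + 1)), ← hep, heq]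
    by_cases h2 : e = ef
    · subst h2; simp [override, hmf]
    rw [Function.update_of_ne h2]
    by_cases h1 : e = ep
    · subst h1; simp [override, hmp]
    rw [Function.update_of_ne h1]
    by_cases h3 : e ∈ g
    · simp [override, hS, h3, hv₀]
    · simp [override, hS, h3, h1, h2]
  rw [hov]
  exact fork_of_core ht hγ hcl hd hr hdir hne hl3 hδ hfw hb

omit ha hcl hd hdir hne in
/-- The ray's Busemann function drops below the line's somewhere: no preliminary lowering. -/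
lemma ready_low {z₀ : V}
    (hz : bus t univ r z₀ - bus t univ (bwd γ 0) z₀
      < ⨅ z, bus t univ r z + bus t univ (fwd γ 0) z) :
    ∃ κ > 0, ∀ᶠ N in atTop, ∀ᶠ s : ℕ in atTop, Ready t t γ r κ N s := by
  set A := bus t univ r with hAdef
  set Q := bus t univ (fwd γ 0) with hQdef
  set P := bus t univ (bwd γ 0) with hPdef
  set e₀ := ⨅ z, A z + Q z with he₀
  have hbdd : BddBelow (range fun z => A z + Q z) := ⟨-C, by rintro _ ⟨z, rfl⟩; exact hC z⟩
  have hge : ∀ z, e₀ ≤ A z + Q z := fun z => ciInf_le hbdd z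
  have hfray := Rays.isRayIn_fwd hγ ht.nn 0
  have hbray := Rays.isRayIn_bwd hγ ht.nn 0
  refine ⟨(e₀ - (A z₀ - P z₀)) / 2, by linarith, ?_⟩
  have hlim := Rays.tendsto_bus ht.nn hr (connIn_univ (r 0) z₀)
  filter_upwards [hlim.eventually (eventually_le_nhds
    (show A z₀ < A z₀ + (e₀ - (A z₀ - P z₀)) / 2 by linarith))] with N hN
  refine Eventually.of_forall fun s => ⟨line_of_big hγ ht, fun n hn m hm => ?_, fun n hn => ?_,
    fun a b _ _ => ?_⟩
  · have h1 := le_T_ray ht hr n (γ m)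
    have h2 := hge (γ m)
    rw [hQdef, bus_fwd_val ht hγ m] at h2
    simp only [← hAdef, ← hQdef, ← he₀] at *
    linarith
  · rw [T_comm, T_eq_TS, ← hr.geo N n hn]
  · have h1 : P (r N) ≤ T t (γ a) (r N) + sl t γ a := by
      have := bus_sub_le ht hbray (r N) (γ a)
      rw [bus_bwd_val ht hγ a, T_comm] at this
      linarith
    have h2 : Q (r N) ≤ T t (r N) (γ b) - sl t γ b := by
      have := bus_sub_le ht hfray (r N) (γ b)
      rw [bus_fwd_val ht hγ b] at this
      linarith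
    have h3 := bus_sub_le ht hbray z₀ (r N)
    have h4 := hge (r N)
    have h5 : A (r N) = -rlen t r N := Rays.bus_ray ht.nn hr N
    rw [← T_eq_TS, T_comm] at hN
    linarith

omit ha hγ hcl hd hdir hC in
/-- Otherwise some edge of the line has both ends strictly above the excess. -/
lemma exists_high
    (hz : ∀ z, (⨅ z, bus t univ r z + bus t univ (fwd γ 0) z)
      ≤ bus t univ r z - bus t univ (bwd γ 0) z) :
    ∃ i, (⨅ z, bus t univ r z + bus t univ (fwd γ 0) z)
      < bus t univ r (γ (i + 1)) - sl t γ (i + 1) := by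
  set A := bus t univ r with hAdef
  set P := bus t univ (bwd γ 0) with hPdef
  set e₀ := ⨅ z, A z + bus t univ (fwd γ 0) z with he₀
  by_contra h
  push Not at h
  refine hne ⟨e₀, fun z => le_antisymm ?_ (hz z)⟩
  suffices A z - e₀ ≤ P z by linarith
  refine Rays.le_bus fun n => ?_
  have h1 := h (-(n : ℤ) - 1)
  rw [show -(n : ℤ) - 1 + 1 = -(n : ℤ) by ring] at h1
  have h2 := bus_sub_le ht hr z (γ (-(n : ℤ)))
  rw [← T_eq_TS, Rays.rlen_bwd, sl_seg γ (by omega), sl_zero]
  simp only [bwd, zero_sub]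
  rw [T_comm t (γ (-(n : ℤ)))]
  simp only [← hAdef] at *
  linarith

omit hcl hd hdir hne in
/-- After lowering such an edge by an amount in `(c₀, gap / 2)`. -/
lemma ready_high {i : ℤ} {w c₀ : ℝ} (hw0 : 0 < w) (hc₀ : 0 ≤ c₀)
    (hD : c₀ ≤ wt t (γ i) (γ (i + 1)) - w)
    (hgap : 2 * (wt t (γ i) (γ (i + 1)) - w) ≤
      bus t univ r (γ (i + 1)) - sl t γ (i + 1) - ⨅ z, bus t univ r z + bus t univ (fwd γ 0) z)
    {N : ℕ} {K : ℝ} (hK : K ≤ rlen t r N)
    (hK1 : |bus t univ r (γ i)| + |bus t univ r (γ (i + 1))| + |sl t γ i| + |sl t γ (i + 1)| +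
      |⨅ z, bus t univ r z + bus t univ (fwd γ 0) z| + 2 * wt t (γ i) (γ (i + 1)) ≤ K)
    (hAQ : bus t univ r (r N) + bus t univ (fwd γ 0) (r N) ≤
      (⨅ z, bus t univ r z + bus t univ (fwd γ 0) z) +
        (bus t univ r (γ (i + 1)) - sl t γ (i + 1) -
          ⨅ z, bus t univ r z + bus t univ (fwd γ 0) z) / 2)
    {s : ℤ} (hs : i < s) :
    Ready t (setE t (γ i) (γ (i + 1)) w) γ r c₀ N s := by
  set A := bus t univ r with hAdef
  set Q := bus t univ (fwd γ 0) with hQdef
  set P := bus t univ (bwd γ 0) with hPdef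
  set e₀ := ⨅ z, A z + Q z with he₀
  have hl := line_of_big hγ ht
  have hbdd : BddBelow (range fun z => A z + Q z) := ⟨-C, by rintro _ ⟨z, rfl⟩; exact hC z⟩
  have hge : ∀ z, e₀ ≤ A z + Q z := fun z => ciInf_le hbdd z
  have hfray := Rays.isRayIn_fwd hγ ht.nn 0
  have hbray := Rays.isRayIn_bwd hγ ht.nn 0
  have hww : w ≤ wt t (γ i) (γ (i + 1)) := by linarith
  set t1 := setE t (γ i) (γ (i + 1)) w with ht1
  have hp1 : Pos t1 := setE_pos ht hw0 _ _
  have hle : ∀ e, t1 e ≤ t e := setE_le hww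
  have hWi : wt t (γ i) (γ (i + 1)) = sl t γ (i + 1) - sl t γ i := by rw [sl_succ]; ring
  have hAstep : A (γ (i + 1)) ≤ A (γ i) + wt t (γ i) (γ (i + 1)) := by
    have h := bus_sub_le ht hr (γ (i + 1)) (γ i)
    rw [T_comm] at h
    linarith [T_le_wt ht.nn (hl.adj i)]
  have hAN : A (r N) = -rlen t r N := Rays.bus_ray ht.nn hr N
  have hQN := hge (r N)
  have hTN : ∀ z, A z + rlen t r N ≤ T t (r N) z := le_T_ray ht hr N
  have hq : ∀ z, Q (r N) - Q z ≤ T t z (r N) := fun z => by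
    have := bus_sub_le ht hfray (r N) z
    rw [T_comm] at this
    linarith
  have hQi : Q (γ i) = -sl t γ i := bus_fwd_val ht hγ i
  have hQi' : Q (γ (i + 1)) = -sl t γ (i + 1) := bus_fwd_val ht hγ (i + 1)
  obtain ⟨a1, a2⟩ := abs_le.1 (le_refl |A (γ i)|)
  obtain ⟨a3, a4⟩ := abs_le.1 (le_refl |A (γ (i + 1))|)
  obtain ⟨a5, a6⟩ := abs_le.1 (le_refl |sl t γ i|)
  obtain ⟨a7, a8⟩ := abs_le.1 (le_refl |sl t γ (i + 1)|)
  obtain ⟨a9, a10⟩ := abs_le.1 (le_refl |e₀|)
  have hvi : 0 < wt t (γ i) (γ (i + 1)) := ht _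
  refine ⟨hl.setE ha ht i hw0 hww, fun n hn m hm => ?_, fun n hn => ?_, fun a b ha' hb' => ?_⟩
  · have e1 : sl t1 γ m - sl t1 γ s = sl t γ m - sl t γ s := by
      rw [ht1, sl_setE_line hl i w hm, if_neg (by omega), sub_zero]
    have e2 := rlen_anti hle r hn
    have g0 := le_T_ray ht hr n (γ m)
    have g0' := hge (γ m)
    rw [hQdef, bus_fwd_val ht hγ m] at g0'
    have g1 := le_T_ray ht hr n (γ i)
    have g2 := le_T_ray ht hr n (γ (i + 1))
    have g3 := hl.geo (i + 1) m (by omega)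
    have g4 := hl.geo i m (by omega)
    simp only [← hAdef, ← hQdef, ← he₀] at *
    refine le_T_setE ha ht (hl.adj i) hw0 hww ?_ ?_ ?_ <;> linarith
  · refine le_T_setE ha ht (hl.adj i) hw0 hww ?_ ?_ ?_
    · rw [T_comm, T_eq_TS, ← hr.geo N n hn]
      exact rlen_anti hle r hn
    · have g1 := le_T_ray ht hr n (γ i)
      have g2 := hq (γ (i + 1))
      simp only [← hAdef] at g1
      linarith [rlen_anti hle r hn]
    · have g1 := le_T_ray ht hr n (γ (i + 1))
      have g2 := hq (γ i)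
      simp only [← hAdef] at g1
      linarith [rlen_anti hle r hn]
  · suffices key : ∀ a : ℤ, a ≤ i →
        c₀ + (sl t1 γ b - sl t1 γ a) ≤ T t1 (γ a) (r N) + T t1 (r N) (γ b) by
      rcases le_or_gt a i with h | h
      · exact key a h
      · have h1 := key i le_rfl
        have h2 := T_triangle hp1.nn (γ i) (γ a) (r N)
        have h3 := T_le_sl hp1 hl.adj h.le
        linarith
    intro a hai
    have hib : i < b := by omega
    have e1 : sl t1 γ b - sl t1 γ a = sl t γ b - sl t γ a - (wt t (γ i) (γ (i + 1)) - w) := by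
      rw [ht1, sl_setE_line hl i w (by omega), if_pos ⟨hai, hib⟩]
    set D := wt t (γ i) (γ (i + 1)) - w with hDdef
    set τ := T t (γ i) (r N) with hτ
    have f1 : min (P (r N) - sl t γ a) (sl t γ i - sl t γ a - D + τ) ≤ T t1 (γ a) (r N) := by
      refine le_T_setE ha ht (hl.adj i) hw0 hww ((min_le_left _ _).trans ?_)
        ((min_le_right _ _).trans ?_) ((min_le_right _ _).trans ?_)
      · have := bus_sub_le ht hbray (r N) (γ a)
        rw [bus_bwd_val ht hγ a, T_comm] at this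
        simp only [← hPdef] at this
        linarith
      · rw [hl.geo a i hai]
        linarith [T_triangle ht.nn (γ i) (γ (i + 1)) (r N), T_le_wt ht.nn (hl.adj i)]
      · rw [hl.geo a (i + 1) (by omega)]
        linarith
    have f2 : min (sl t γ b + Q (r N)) (τ - D + (sl t γ b - sl t γ i)) ≤ T t1 (r N) (γ b) := by
      refine le_T_setE ha ht (hl.adj i) hw0 hww ((min_le_left _ _).trans ?_)
        ((min_le_right _ _).trans ?_) ((min_le_right _ _).trans ?_)
      · have := bus_sub_le ht hfray (r N) (γ b)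
        rw [bus_fwd_val ht hγ b] at this
        simp only [← hQdef] at this
        linarith
      · rw [hl.geo (i + 1) b (by omega), T_comm t (r N)]
        linarith
      · rw [hl.geo i b (by omega)]
        linarith [T_triangle ht.nn (r N) (γ (i + 1)) (γ i), T_comm t (r N) (γ i),
          T_comm t (γ (i + 1)) (γ i), T_le_wt ht.nn (hl.adj i)]
    have hPQ := Rays.bus_line_nonneg hγ ht.nn 0 (r N)
    simp only [← hPdef, ← hQdef] at hPQ
    have hτ1 := hTN (γ i)
    rw [T_comm, ← hτ] at hτ1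
    rcases le_total (P (r N) - sl t γ a) (sl t γ i - sl t γ a - D + τ) with h1 | h1 <;>
      rcases le_total (sl t γ b + Q (r N)) (τ - D + (sl t γ b - sl t γ i)) with h2 | h2 <;>
      simp only [h1, h2, min_eq_left, min_eq_right] at f1 f2 <;> linarith

/-- The surgery. -/
theorem exists_surgery (h0G : G (Iic 0) = 0)
    (hgrow : Tendsto (rlen t r) atTop atTop)
    (hleft : ∀ e, ∀ ε > 0, 0 < G (Ioo (t e - ε) (t e)))
    (hgood : ∀ κ > 0, ∃ c > 0, c < κ ∧ ∀ u : ℕ → V, Function.Injective u →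
      (∀ i, Adj (u i) (u (i + 1))) →
        ∃ᶠ n in atTop, 0 < G (Ioo (wt t (u n) (u (n + 1)) - κ) (wt t (u n) (u (n + 1)) - c))) :
    ∃ (S : Finset Edge) (W : S → Set ℝ), (∀ e, 0 < G (W e)) ∧
      ∀ v, (∀ e, v e ∈ W e) → Fork D (override t S v) := by
  classical
  by_cases hcase : ∃ z₀, bus t univ r z₀ - bus t univ (bwd γ 0) z₀
      < ⨅ z, bus t univ r z + bus t univ (fwd γ 0) z
  · obtain ⟨z₀, hz⟩ := hcase
    obtain ⟨κ, hκ, hR⟩ := ready_low ht hγ hr hC hz
    obtain ⟨c, hc, -, hc'⟩ := hgood κ hκ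
    refine fork_of_ready ha ht hγ hcl hd hr hdir hne hC h0G hc hc' ∅ (fun _ => t) (fun _ => univ)
      (fun e => absurd e.2 (Finset.notMem_empty _))
      (fun v _ => ⟨ht, ha, fun _ => le_rfl, ?_⟩) (hR.mono fun N hN _ => hN.mono fun s hs _ _ => hs)
    funext e; simp [override]
  · push Not at hcase
    obtain ⟨i, hi⟩ := exists_high ht hr hne hcase
    set gap := bus t univ r (γ (i + 1)) - sl t γ (i + 1)
      - ⨅ z, bus t univ r z + bus t univ (fwd γ 0) z with hgap
    have hgap0 : 0 < gap := sub_pos.2 hi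
    set eg := edgeOf (γ i) (γ (i + 1)) with heg
    obtain ⟨c₀, hc₀, hc₀g, hc₀m⟩ := exists_gap (hleft eg (gap / 2) (half_pos hgap0))
    obtain ⟨c, hc, hcκ, hc'⟩ := hgood c₀ hc₀
    refine fork_of_ready ha ht hγ hcl hd hr hdir hne hC h0G hc hc' {eg}
      (fun v => setE t (γ i) (γ (i + 1)) (v ⟨eg, Finset.mem_singleton_self _⟩))
      (fun _ => Ioo (t eg - gap / 2) (t eg - c₀) ∩ Ioi 0)
      (fun _ => pos_inter h0G hc₀m) (fun v hv => ?_) ?_
    · have hv1 := hv ⟨eg, Finset.mem_singleton_self _⟩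
      simp only [mem_inter_iff, mem_Ioo, mem_Ioi] at hv1
      have hww : v ⟨eg, Finset.mem_singleton_self _⟩ ≤ wt t (γ i) (γ (i + 1)) := by
        simp only [wt, ← heg]; linarith [hv1.1.2]
      refine ⟨setE_pos ht hv1.2 _ _, att_setE ha ht ((line_of_big hγ ht).adj i) hv1.2 hww,
        setE_le hww, ?_⟩
      funext e
      by_cases he : e = eg
      · subst he; simp [setE, override, ← heg]
      · simp [setE, override, ← heg, he]
    · filter_upwards [hgrow.eventually (eventually_ge_atTop _)] with N hK hAQ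
      filter_upwards [eventually_gt_atTop i.toNat] with s hs v hv
      have hv1 := hv ⟨eg, Finset.mem_singleton_self _⟩
      simp only [mem_inter_iff, mem_Ioo, mem_Ioi] at hv1
      refine ready_high ha ht hγ hr hC hv1.2 hc₀.le ?_ ?_ hK le_rfl ?_ (by omega)
      · simp only [wt, ← heg]; linarith [hv1.1.2]
      · simp only [wt, ← heg, ← hgap]; linarith [hv1.1.1]
      · rw [← hgap]; linarith

end surgery

end Vale.Agent.P158.Match
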